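import Vale.Agent.P099.Main

open MeasureTheory

namespace Vale.Agent.Results.P099.ErgWM

open Vale.Agent.P099

theorem result (v : Fin 3 → ℂ) (hv : AffineIndependent ℝ v) (hirr : ¬ RationalTriangle v) :
    (IsProbabilityMeasure (mu v) ∧ (∀ᵐ p ∂(mu v), ∃! γ, IsTraj v γ ∧ γ 0 = p) ∧
      ∀ t, MeasurePreserving (flow v t) (mu v) (mu v)) ∧
    FlowErgodic (flow v) (mu v) ∧
    FlowErgodic (fun t => Prod.map (flow v t) (flow v t)) ((mu v).prod (mu v)) :=
  ⟨⟨isProb_mu hv, ae_traj hv, mp_flow_mu hv⟩, ergodic hv hirr, weak_mixing hv hirr⟩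

end Vale.Agent.Results.P099.ErgWM
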